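import Vale.Agent.N329.NfAlg

open Vale.Agent.N329.Nf

/-- (1) A language over a finite alphabet is regular if and only if it is denoted by an expression
in normal form: on every branch the complements and stars form a subsequence of complement, star,
complement, star, star.
(2) A computable function translates the table of every finite automaton into the code of such an
expression; the code determines the expression. -/
theorem Vale.Agent.Results.P329.A0NormalForm.result :
    (∀ (α : Type) [Finite α] (L : Language α),
      L.IsRegular ↔ ∃ e : Ex α, e.Normal ∧ e.lang = L) ∧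
    (∃ F : ℕ × List (List ℕ) × ℕ × List ℕ → List ℕ, Computable F ∧
      ∀ (k n : ℕ) (A : DFA (Fin k) (Fin n)), ∃ e : Ex (Fin k),
        e.Normal ∧ e.lang = A.accepts ∧ F (table A) = e.code) ∧
    ∀ k : ℕ, Function.Injective (Ex.code (k := k)) :=
  ⟨fun _ _ L => ⟨fun h => ((regular_iff L).1 h).imp fun _ he => he.2,
      fun ⟨e, _, h⟩ => h ▸ e.rec_bnd.regular⟩,
    effective.imp fun _ h => ⟨h.1, fun k n A => (h.2 k n A).imp fun _ he => he.2⟩,
    fun _ => code_injective⟩
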