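import Vale.Agent.N329.Omega

namespace Vale.Agent.Results.P329.A0TwoStars

open Vale.Agent.P329 Vale.Agent.N329

/-- (1) Every regular language over a finite alphabet is denoted by an expression of star height at
most two with the languages of the powers of single words as constants, and by an expression of
star height at most two with one constant, the words whose length is a multiple of `q`.
(2) For every `n` there is `D` such that for every automaton with `n` states over a finite alphabet
and every `N` the accepted words without a factor `z ^ N`, `0 < |z| ≤ D`, form a language of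
generalized star height at most two.
(3) Infinite words: a bound for all regular languages over an alphabet carries over to all
languages of Buechi automata and expressions without infinite power. -/
theorem result :
    (∀ (α : Type) [Finite α] (L : Language α), L.IsRegular →
      (∃ e : XRE α (List α), e.height ≤ 2 ∧ e.lang (fun y => {w | ∃ j, w = pow y j}) = L) ∧
      (∃ q : ℕ, 0 < q ∧ ∃ e : XRE α Unit, e.height ≤ 2 ∧
        e.lang (fun _ => {w | q ∣ w.length}) = L)) ∧
    (∀ n : ℕ, ∃ D : ℕ, ∀ (α : Type) [Finite α] (A : DFA α (Fin n)) (N : ℕ),
      ∃ e : GRE α, e.height ≤ 2 ∧ e.lang = {w | w ∈ A.accepts ∧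
        ∀ z : List α, z ≠ [] → z.length ≤ D → ¬ pow z N <:+: w}) ∧
    (∀ (α σ : Type) [Finite α] [Finite σ] (A : NFA α σ) (k : ℕ),
      (∀ L : Language α, L.IsRegular → ∃ e : GRE α, e.height ≤ k ∧ e.lang = L) →
        ∃ e : ORE α, e.height ≤ k ∧ e.lang = buchi A) :=
  ⟨fun _ _ L hL => ⟨two_pow L hL, two_mod L hL⟩, fun n => two_free (Fin n),
    fun _ _ _ _ A _ h => omega_of h A⟩

end Vale.Agent.Results.P329.A0TwoStars
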